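import Vale.Agent.P140.Proof

namespace Vale.Agent.Results.P140.MaxwellianDatumUnique

open MeasureTheory
open Vale.Agent.P140

theorem result (ρ T : ℝ) (hρ : 0 < ρ) (hT : 0 < T) (u : Vel) (F : ℝ → Phase → ℝ)
    (hadm : ∀ t, 0 ≤ t → Admissible (F t))
    (hmass : ∀ t, 0 ≤ t → ∫ z, F t z = ∫ z : Phase, maxwellian ρ u T z.2)
    (hmom : ∀ t, 0 ≤ t → momentum (F t) = momentum (fun z => maxwellian ρ u T z.2))
    (hen : ∀ t, 0 ≤ t → energy (F t) ≤ energy (fun z => maxwellian ρ u T z.2))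
    (hH : ∀ t, 0 ≤ t → relH (F t) ≤ relH (fun z => maxwellian ρ u T z.2)) :
    ∀ t, 0 ≤ t → (T ≤ 1 ∨ energy (F t) = energy (fun z => maxwellian ρ u T z.2)) →
      F t =ᵐ[volume] fun z => maxwellian ρ u T z.2 :=
  fun t ht hc => eq_maxwellian_of_relH_le hρ hT u (F t) (hadm t ht) (hmass t ht) (hmom t ht)
    (hen t ht) (hH t ht) hc

end Vale.Agent.Results.P140.MaxwellianDatumUnique
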